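import Vale.Agent.P181.MN.Defs
import Vale.Agent.P181.H19.Gt

set_option autoImplicit false

/-!
# P181, MN, (N1): removal of the first row
-/

namespace Vale.Agent.P181.MN.H352

open Finset Vale.Agent.P181.H463 Vale.Agent.P181.H19

lemma prod_Ioi_last (N : ℕ) (v : Fin (N + 1) → Fin (N + 1) → ℤ) :
    ∏ i, ∏ j ∈ Ioi i, v i j =
      (∏ i : Fin N, ∏ j ∈ Ioi i, v i.castSucc j.castSucc) *
        ∏ i : Fin N, v i.castSucc (Fin.last N) := by
  have h : ∀ {M : ℕ} (w : Fin M → Fin M → ℤ), ∏ i, ∏ j ∈ Ioi i, w i j =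
      ∏ i, ∏ j, if i < j then w i j else 1 := by
    intro M w
    refine prod_congr rfl fun i _ => ?_
    rw [← Finset.prod_filter]
    refine prod_congr ?_ fun _ _ => rfl
    ext j
    simp
  rw [h, h, Fin.prod_univ_castSucc]
  have h1 : ∏ j : Fin (N + 1), (if Fin.last N < j then v (Fin.last N) j else 1) = 1 :=
    prod_eq_one fun j _ => if_neg (Fin.le_last j).not_gt
  rw [h1, mul_one, ← prod_mul_distrib]
  refine prod_congr rfl fun i _ => ?_
  rw [Fin.prod_univ_castSucc, if_pos (Fin.castSucc_lt_last i)]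
  congr 1

/-- **(N1)** -/
theorem rowG : RowG := by
  intro n N m g x mu hn hm hmu hx hg
  have hanti : Antitone (Fin.cons x mu : Fin (n + 1) → ℕ) := by
    intro i j hij
    induction i using Fin.cases with
    | zero =>
      induction j using Fin.cases with
      | zero => exact le_rfl
      | succ j =>
        rw [Fin.cons_succ, Fin.cons_zero]
        exact hx j
    | succ i =>
      induction j using Fin.cases with
      | zero => exact absurd hij (Fin.succ_pos i).not_ge
      | succ j =>
        rw [Fin.cons_succ, Fin.cons_succ]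
        exact hmu (Fin.succ_le_succ_iff.1 hij)
  have hseq : ∀ i : Fin N, seqx (Fin.cons x mu : Fin (n + 1) → ℕ) (N + 1) i.castSucc =
      seqx mu N i := by
    intro i
    have hi := i.2
    unfold seqx
    rw [Fin.val_castSucc]
    congr 1
    have h1 : N + 1 - 1 - (i : ℕ) = (N - 1 - (i : ℕ)) + 1 := by omega
    rw [h1]
    unfold pad
    by_cases h : N - 1 - (i : ℕ) < n
    · rw [dif_pos h, dif_pos (by omega)]
      exact Fin.cons_succ (α := fun _ => ℕ) x mu ⟨N - 1 - (i : ℕ), h⟩
    · rw [dif_neg h, dif_neg (by omega)]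
  have hlast : seqx (Fin.cons x mu : Fin (n + 1) → ℕ) (N + 1) (Fin.last N) = x + N := by
    unfold seqx
    rw [Fin.val_last, Nat.add_sub_cancel, Nat.sub_self]
    congr 1
  have h1 := gt_prod (show n + 1 ≤ N + 1 by omega) (Fin.cons x mu : Fin (n + 1) → ℕ) hanti
  rw [prod_Ioi_last, Fin.prod_univ_castSucc, Fin.val_last] at h1
  simp only [hseq, hlast, Fin.val_castSucc] at h1
  rw [← gt_prod hn mu hmu] at h1
  have hc : (0 : ℤ) < ∏ i : Fin N, ((i : ℕ).factorial : ℤ) :=
    prod_pos fun i _ => by exact_mod_cast Nat.factorial_pos _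
  have h2 : (gt (n + 1) (N + 1) (Fin.cons x mu) : ℤ) * (N.factorial : ℤ) =
      gt n N mu * ∏ i : Fin N, (((x + N : ℕ) : ℤ) - seqx mu N i) := by
    refine mul_right_cancel₀ hc.ne' ?_
    linear_combination h1
  have hpad : ∀ r, pad mu r ≤ x := by
    intro r
    unfold pad
    split_ifs
    · exact hx _
    · exact Nat.zero_le _
  have h3 : ((g : ℤ)) ^ (N - m) ≤ ∏ i : Fin N, (((x + N : ℕ) : ℤ) - seqx mu N i) := by
    have h4 : ∏ i : Fin N, (if m ≤ N - 1 - (i : ℕ) then (g : ℤ) else 1) = (g : ℤ) ^ (N - m) := by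
      rw [prod_ite, prod_const, prod_const_one, mul_one]
      congr 1
      have h5 : (univ.filter fun i : Fin N => m ≤ N - 1 - (i : ℕ)) =
          univ.filter fun i : Fin N => (i : ℕ) < N - m := by
        ext i
        have hi := i.2
        simp only [mem_filter, mem_univ, true_and]
        omega
      rw [h5, Fin.card_filter_val_lt, min_eq_right (Nat.sub_le N m)]
    rw [← h4]
    apply prod_le_prod
    · intro i _
      split_ifs
      · exact Int.natCast_nonneg g
      · norm_num
    · intro i _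
      have hi := i.2
      unfold seqx
      have h5 := hpad (N - 1 - (i : ℕ))
      split_ifs with h
      · have h6 : pad mu (N - 1 - (i : ℕ)) ≤ T4.ex mu m := pad_anti hmu h
        push_cast
        have h7 : ((pad mu (N - 1 - (i : ℕ)) : ℕ) : ℤ) + g ≤ x := by
          exact_mod_cast (Nat.add_le_add_right h6 g).trans hg
        have h8 : ((i : ℕ) : ℤ) < N := by exact_mod_cast hi
        linarith
      · push_cast
        have h7 : ((pad mu (N - 1 - (i : ℕ)) : ℕ) : ℤ) ≤ x := by exact_mod_cast h5
        have h8 : ((i : ℕ) : ℤ) < N := by exact_mod_cast hi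
        omega
  have h9 : ((g : ℤ)) ^ (N - m) * gt n N mu ≤
      (N.factorial : ℤ) * gt (n + 1) (N + 1) (Fin.cons x mu) := by
    rw [mul_comm (N.factorial : ℤ), h2, mul_comm]
    exact mul_le_mul_of_nonneg_left h3 (Int.natCast_nonneg _)
  exact_mod_cast h9

end Vale.Agent.P181.MN.H352
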